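import Vale.Agent.P372.Random.Signs

/-!
Complex form of the bounds on the sign matrices.
-/

open Finset Matrix

noncomputable section

namespace Vale.Agent.P372.Random

variable {d : ℕ}

lemma sqrt_re_le (x : Fin d → ℂ) : √(∑ i, (x i).re ^ 2) ≤ √(∑ i, ‖x i‖ ^ 2) :=
  Real.sqrt_le_sqrt (sum_le_sum fun i _ => by rw [← sq_abs]; exact pow_le_pow_left₀ (abs_nonneg _) (Complex.abs_re_le_norm _) 2)

lemma sqrt_im_le (x : Fin d → ℂ) : √(∑ i, (x i).im ^ 2) ≤ √(∑ i, ‖x i‖ ^ 2) :=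
  Real.sqrt_le_sqrt (sum_le_sum fun i _ => by rw [← sq_abs]; exact pow_le_pow_left₀ (abs_nonneg _) (Complex.abs_im_le_norm _) 2)

/-- trilinear bound over `ℂ` -/
lemma tri_complex {U : Fin d → Matrix (Fin d) (Fin d) ℝ} {C : ℝ} (hC : 0 ≤ C)
    (h : ∀ x y z : Fin d → ℝ, |∑ m, ∑ i, ∑ j, z m * U m i j * x i * y j| ≤
      C * √(∑ i, x i ^ 2) * √(∑ i, y i ^ 2) * √(∑ i, z i ^ 2)) (x y z : Fin d → ℂ) :
    ‖∑ m, ∑ i, ∑ j, z m * (U m i j : ℂ) * x i * y j‖ ≤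
      8 * C * √(∑ i, ‖x i‖ ^ 2) * √(∑ i, ‖y i‖ ^ 2) * √(∑ i, ‖z i‖ ^ 2) := by
  set T := fun x y z : Fin d → ℝ => ∑ m, ∑ i, ∑ j, z m * U m i j * x i * y j
  set a := fun i => (x i).re; set a' := fun i => (x i).im
  set b := fun i => (y i).re; set b' := fun i => (y i).im
  set c := fun i => (z i).re; set c' := fun i => (z i).im
  set K := C * √(∑ i, ‖x i‖ ^ 2) * √(∑ i, ‖y i‖ ^ 2) * √(∑ i, ‖z i‖ ^ 2)
  have hb : ∀ p q r : Fin d → ℝ, √(∑ i, p i ^ 2) ≤ √(∑ i, ‖x i‖ ^ 2) → √(∑ i, q i ^ 2) ≤ √(∑ i, ‖y i‖ ^ 2) →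
      √(∑ i, r i ^ 2) ≤ √(∑ i, ‖z i‖ ^ 2) → |T p q r| ≤ K := fun p q r hp hq hr =>
    (h p q r).trans (by simp only [K]; gcongr)
  have ha := sqrt_re_le x; have ha' := sqrt_im_le x
  have hb1 := sqrt_re_le y; have hb' := sqrt_im_le y
  have hc := sqrt_re_le z; have hc' := sqrt_im_le z
  have hre : (∑ m, ∑ i, ∑ j, z m * (U m i j : ℂ) * x i * y j).re =
      T a b c - T a' b' c - T a b' c' - T a' b c' := by
    simp only [T, a, a', b, b', c, c', Complex.re_sum, Complex.mul_re, Complex.mul_im, Complex.ofReal_re,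
      Complex.ofReal_im, ← sum_sub_distrib]
    exact sum_congr rfl fun m _ => sum_congr rfl fun i _ => sum_congr rfl fun j _ => by ring
  have him : (∑ m, ∑ i, ∑ j, z m * (U m i j : ℂ) * x i * y j).im =
      T a b c' + T a' b c + T a b' c - T a' b' c' := by
    simp only [T, a, a', b, b', c, c', Complex.im_sum, Complex.mul_re, Complex.mul_im, Complex.ofReal_re,
      Complex.ofReal_im, ← sum_sub_distrib, ← sum_add_distrib]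
    exact sum_congr rfl fun m _ => sum_congr rfl fun i _ => sum_congr rfl fun j _ => by ring
  refine (Complex.norm_le_abs_re_add_abs_im _).trans ?_
  rw [hre, him, show 8 * C * √(∑ i, ‖x i‖ ^ 2) * √(∑ i, ‖y i‖ ^ 2) * √(∑ i, ‖z i‖ ^ 2) = 8 * K by simp only [K]; ring]
  have k1 := abs_le.1 (hb a b c ha hb1 hc)
  have k2 := abs_le.1 (hb a' b' c ha' hb' hc)
  have k3 := abs_le.1 (hb a b' c' ha hb' hc')
  have k4 := abs_le.1 (hb a' b c' ha' hb1 hc')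
  have k5 := abs_le.1 (hb a b c' ha hb1 hc')
  have k6 := abs_le.1 (hb a' b c ha' hb1 hc)
  have k7 := abs_le.1 (hb a b' c ha hb' hc)
  have k8 := abs_le.1 (hb a' b' c' ha' hb' hc')
  have e1 : |T a b c - T a' b' c - T a b' c' - T a' b c'| ≤ 4 * K :=
    abs_le.2 ⟨by linarith [k1.1, k2.2, k3.2, k4.2], by linarith [k1.2, k2.1, k3.1, k4.1]⟩
  have e2 : |T a b c' + T a' b c + T a b' c - T a' b' c'| ≤ 4 * K :=
    abs_le.2 ⟨by linarith [k5.1, k6.1, k7.1, k8.2], by linarith [k5.2, k6.2, k7.2, k8.1]⟩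
  linarith

/-- the value of `∑ |U_m⟩⟨U_m|` on product vectors -/
lemma sum_sq_bil_le {U : Fin d → Matrix (Fin d) (Fin d) ℝ} {C : ℝ} (hC : 0 ≤ C)
    (h : ∀ x y z : Fin d → ℝ, |∑ m, ∑ i, ∑ j, z m * U m i j * x i * y j| ≤
      C * √(∑ i, x i ^ 2) * √(∑ i, y i ^ 2) * √(∑ i, z i ^ 2)) (x y : Fin d → ℂ) :
    ∑ m, ‖∑ i, ∑ j, (U m i j : ℂ) * x i * y j‖ ^ 2 ≤ (8 * C) ^ 2 * (∑ i, ‖x i‖ ^ 2) * ∑ i, ‖y i‖ ^ 2 := by
  set w := fun m => ∑ i, ∑ j, (U m i j : ℂ) * x i * y j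
  have key := tri_complex hC h x y fun m => starRingEnd ℂ (w m)
  have e : ∑ m, ∑ i, ∑ j, starRingEnd ℂ (w m) * (U m i j : ℂ) * x i * y j = ((∑ m, ‖w m‖ ^ 2 : ℝ) : ℂ) := by
    push_cast
    refine sum_congr rfl fun m _ => ?_
    rw [← Complex.conj_mul']
    simp only [w, mul_sum, mul_assoc]
  rw [e, Complex.norm_real, Real.norm_eq_abs, abs_of_nonneg (sum_nonneg fun m _ => sq_nonneg _)] at key
  simp only [Complex.norm_conj] at key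
  set S := ∑ m, ‖w m‖ ^ 2
  have hS : 0 ≤ S := sum_nonneg fun m _ => sq_nonneg _
  set P := 8 * C * √(∑ i, ‖x i‖ ^ 2) * √(∑ i, ‖y i‖ ^ 2) with hP
  have hP2 : P ^ 2 = (8 * C) ^ 2 * (∑ i, ‖x i‖ ^ 2) * ∑ i, ‖y i‖ ^ 2 := by
    rw [hP, mul_pow, mul_pow, Real.sq_sqrt (sum_nonneg fun i _ => sq_nonneg _), Real.sq_sqrt (sum_nonneg fun i _ => sq_nonneg _)]
  rw [← hP2]
  nlinarith [sq_nonneg (P - √S), Real.mul_self_sqrt hS]

/-- the doubled sum is `≤ ε d` over `ℂ` -/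
lemma form_complex {U : Fin d → Matrix (Fin d) (Fin d) ℝ} {K : ℝ} (hK : 0 ≤ K)
    (h : ∀ X Y : Fin d → Fin d → ℝ, |∑ m, ∑ i, ∑ a, ∑ j, ∑ b, U m i a * U m b j * X i j * Y a b| ≤
        K * √(∑ i, ∑ j, X i j ^ 2) * √(∑ i, ∑ j, Y i j ^ 2)) (X Y : Fin d → Fin d → ℂ) :
    ‖∑ m, ∑ i, ∑ a, ∑ j, ∑ b, (U m i a : ℂ) * (U m b j : ℂ) * X i j * Y a b‖ ≤
      4 * K * √(∑ i, ∑ j, ‖X i j‖ ^ 2) * √(∑ i, ∑ j, ‖Y i j‖ ^ 2) := by
  set T := fun X Y : Fin d → Fin d → ℝ => ∑ m, ∑ i, ∑ a, ∑ j, ∑ b, U m i a * U m b j * X i j * Y a b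
  set L := K * √(∑ i, ∑ j, ‖X i j‖ ^ 2) * √(∑ i, ∑ j, ‖Y i j‖ ^ 2)
  set a := fun i j => (X i j).re; set a' := fun i j => (X i j).im
  set b := fun i j => (Y i j).re; set b' := fun i j => (Y i j).im
  have sre : ∀ Z : Fin d → Fin d → ℂ, √(∑ i, ∑ j, (Z i j).re ^ 2) ≤ √(∑ i, ∑ j, ‖Z i j‖ ^ 2) := fun Z =>
    Real.sqrt_le_sqrt (sum_le_sum fun i _ => sum_le_sum fun j _ => by
      rw [← sq_abs]; exact pow_le_pow_left₀ (abs_nonneg _) (Complex.abs_re_le_norm _) 2)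
  have sim : ∀ Z : Fin d → Fin d → ℂ, √(∑ i, ∑ j, (Z i j).im ^ 2) ≤ √(∑ i, ∑ j, ‖Z i j‖ ^ 2) := fun Z =>
    Real.sqrt_le_sqrt (sum_le_sum fun i _ => sum_le_sum fun j _ => by
      rw [← sq_abs]; exact pow_le_pow_left₀ (abs_nonneg _) (Complex.abs_im_le_norm _) 2)
  have hb : ∀ P Q : Fin d → Fin d → ℝ, √(∑ i, ∑ j, P i j ^ 2) ≤ √(∑ i, ∑ j, ‖X i j‖ ^ 2) →
      √(∑ i, ∑ j, Q i j ^ 2) ≤ √(∑ i, ∑ j, ‖Y i j‖ ^ 2) → |T P Q| ≤ L := fun P Q hp hq =>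
    (h P Q).trans (by simp only [L]; gcongr)
  have hre : (∑ m, ∑ i, ∑ a, ∑ j, ∑ b, (U m i a : ℂ) * (U m b j : ℂ) * X i j * Y a b).re = T a b - T a' b' := by
    simp only [T, a, a', b, b', Complex.re_sum, Complex.mul_re, Complex.mul_im, Complex.ofReal_re,
      Complex.ofReal_im, ← sum_sub_distrib]
    exact sum_congr rfl fun m _ => sum_congr rfl fun i _ => sum_congr rfl fun _ _ => sum_congr rfl fun j _ =>
      sum_congr rfl fun _ _ => by ring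
  have him : (∑ m, ∑ i, ∑ a, ∑ j, ∑ b, (U m i a : ℂ) * (U m b j : ℂ) * X i j * Y a b).im = T a b' + T a' b := by
    simp only [T, a, a', b, b', Complex.im_sum, Complex.mul_re, Complex.mul_im, Complex.ofReal_re,
      Complex.ofReal_im, ← sum_add_distrib]
    exact sum_congr rfl fun m _ => sum_congr rfl fun i _ => sum_congr rfl fun _ _ => sum_congr rfl fun j _ =>
      sum_congr rfl fun _ _ => by ring
  refine (Complex.norm_le_abs_re_add_abs_im _).trans ?_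
  rw [hre, him, show 4 * K * √(∑ i, ∑ j, ‖X i j‖ ^ 2) * √(∑ i, ∑ j, ‖Y i j‖ ^ 2) = 4 * L by simp only [L]; ring]
  linarith [abs_add_le (T a b') (T a' b), abs_sub (T a b) (T a' b'), hb a b (sre X) (sre Y),
    hb a' b' (sim X) (sim Y), hb a b' (sre X) (sim Y), hb a' b (sim X) (sre Y)]

/-- **Sign matrices, complex form.** -/
theorem exists_signs_complex : ∃ C : ℝ, ∀ ε : ℝ, 0 < ε → ∃ d0 : ℕ, ∀ d : ℕ, d0 ≤ d →
    ∃ U : Fin d → Matrix (Fin d) (Fin d) ℝ, (∀ m i j, U m i j ^ 2 = 1 / d) ∧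
      (∀ x y : Fin d → ℂ, ∑ m, ‖∑ i, ∑ j, (U m i j : ℂ) * x i * y j‖ ^ 2 ≤
        C * (∑ i, ‖x i‖ ^ 2) * ∑ i, ‖y i‖ ^ 2) ∧
      (∀ X Y : Fin d → Fin d → ℂ, ‖∑ m, ∑ i, ∑ a, ∑ j, ∑ b, (U m i a : ℂ) * (U m b j : ℂ) * X i j * Y a b‖ ≤
        ε * d * √(∑ i, ∑ j, ‖X i j‖ ^ 2) * √(∑ i, ∑ j, ‖Y i j‖ ^ 2)) := by
  obtain ⟨C, hC⟩ := exists_signs
  refine ⟨(8 * max C 0) ^ 2, fun ε hε => ?_⟩
  obtain ⟨d0, hd0⟩ := hC (ε / 4) (by positivity)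
  refine ⟨d0, fun d hd => ?_⟩
  obtain ⟨U, h1, h2, h3⟩ := hd0 d hd
  refine ⟨U, h1, fun x y => sum_sq_bil_le (le_max_right _ _) (fun x y z => (h2 x y z).trans ?_) x y, fun X Y => ?_⟩
  · gcongr; exact le_max_left _ _
  · exact (form_complex (K := ε / 4 * d) (by positivity) h3 X Y).trans (le_of_eq (by ring))

end Vale.Agent.P372.Random
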