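import Mathlib

/-!
Eighth trace moment of a sum of independent centred bounded matrices, in counting form.
-/

open Finset Matrix
open scoped Matrix.Norms.L2Operator

noncomputable section

namespace Vale.Agent.P372.Random

variable {ι κ : Type*} [Fintype ι] [DecidableEq ι] [Fintype κ] [DecidableEq κ]

lemma sum_sq_mulVec_le (A : Matrix ι κ ℝ) (v : κ → ℝ) :
    ∑ i, (A *ᵥ v) i ^ 2 ≤ ‖A‖ ^ 2 * ∑ j, v j ^ 2 := by
  have h := Matrix.l2_opNorm_mulVec A (WithLp.toLp 2 v)
  have h2 := pow_le_pow_left₀ (norm_nonneg _) h 2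
  rw [mul_pow, EuclideanSpace.real_norm_sq_eq, EuclideanSpace.real_norm_sq_eq] at h2
  simpa using h2

lemma norm_le_of_sum_sq {A : Matrix ι κ ℝ} {c : ℝ} (hc : 0 ≤ c)
    (h : ∀ v : κ → ℝ, ∑ i, (A *ᵥ v) i ^ 2 ≤ c ^ 2 * ∑ j, v j ^ 2) : ‖A‖ ≤ c := by
  rw [Matrix.l2_opNorm_def]
  refine ContinuousLinearMap.opNorm_le_bound _ hc fun v => ?_
  rw [← pow_le_pow_iff_left₀ (norm_nonneg _) (by positivity) two_ne_zero, mul_pow,
    EuclideanSpace.real_norm_sq_eq, EuclideanSpace.real_norm_sq_eq]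
  simpa using h v.ofLp

lemma norm_sq_le_trace (A : Matrix ι κ ℝ) : ‖A‖ ^ 2 ≤ (Aᵀ * A).trace := by
  have e : (Aᵀ * A).trace = ∑ i, ∑ j, A i j ^ 2 := by
    simp only [Matrix.trace, Matrix.diag, Matrix.mul_apply, Matrix.transpose_apply, sq]
    exact Finset.sum_comm
  have h0 : 0 ≤ ∑ i, ∑ j, A i j ^ 2 := sum_nonneg fun i _ => sum_nonneg fun j _ => sq_nonneg _
  have h : ‖A‖ ≤ √(∑ i, ∑ j, A i j ^ 2) := norm_le_of_sum_sq (Real.sqrt_nonneg _) fun v => by
    rw [Real.sq_sqrt h0, sum_mul]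
    refine sum_le_sum fun i _ => ?_
    exact Finset.sum_mul_sq_le_sq_mul_sq univ (A i) v
  rw [e]
  exact (pow_le_pow_left₀ (norm_nonneg _) h 2).trans_eq (Real.sq_sqrt h0)

lemma abs_trace_le (A : Matrix ι ι ℝ) : |A.trace| ≤ Fintype.card ι * ‖A‖ := by
  refine (abs_sum_le_sum_abs _ _).trans ((sum_le_card_nsmul univ _ ‖A‖ fun i _ => ?_).trans_eq (by simp))
  have h := sum_sq_mulVec_le A (Pi.single i 1)
  have e : ∑ j, (Pi.single i (1:ℝ) : ι → ℝ) j ^ 2 = 1 := by simp [Pi.single_apply]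
  rw [e, mul_one] at h
  have h1 := (single_le_sum (f := fun k => (A *ᵥ Pi.single i 1) k ^ 2) (fun k _ => sq_nonneg _) (mem_univ i)).trans h
  simp only [Matrix.mulVec_single_one, Matrix.col_apply] at h1
  exact abs_le_of_sq_le_sq h1 (norm_nonneg _)

lemma norm_transpose (A : Matrix ι ι ℝ) : ‖Aᵀ‖ = ‖A‖ := by
  rw [← Matrix.conjTranspose_eq_transpose_of_trivial, Matrix.l2_opNorm_conjTranspose]

lemma pow8_le_trace (S : Matrix ι ι ℝ) : ‖S‖ ^ 8 ≤ ((Sᵀ * S) ^ 4).trace := by
  set P := Sᵀ * S with hP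
  have hPs : Pᵀ = P := by simp [hP, Matrix.transpose_mul]
  have h1 : ‖P‖ = ‖S‖ * ‖S‖ := by
    rw [hP, ← Matrix.conjTranspose_eq_transpose_of_trivial, Matrix.l2_opNorm_conjTranspose_mul_self]
  have h2 : ‖P * P‖ = ‖P‖ * ‖P‖ := by
    conv_lhs => arg 1; arg 1; rw [← hPs, ← Matrix.conjTranspose_eq_transpose_of_trivial]
    rw [Matrix.l2_opNorm_conjTranspose_mul_self]
  have h3 := norm_sq_le_trace (P * P)
  rw [Matrix.transpose_mul, hPs, h2, h1] at h3
  calc ‖S‖ ^ 8 = (‖S‖ * ‖S‖ * (‖S‖ * ‖S‖)) ^ 2 := by ring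
    _ ≤ _ := h3
    _ = _ := by rw [show (4:ℕ) = 1 + 1 + 1 + 1 from rfl, pow_add, pow_add, pow_add, pow_one]; simp only [Matrix.mul_assoc]

lemma prod_ofFn_sum {R : Type*} [Semiring R] {β : Type*} [Fintype β] : ∀ (n : ℕ) (X : Fin n → β → R),
    (List.ofFn fun k => ∑ m, X k m).prod = ∑ f : Fin n → β, (List.ofFn fun k => X k (f k)).prod := by
  intro n
  induction n with
  | zero => intro X; simp
  | succ n ih =>
    intro X
    rw [List.ofFn_succ, List.prod_cons, ih (fun k => X k.succ), Finset.sum_mul_sum,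
      ← (Fin.consEquiv fun _ : Fin (n + 1) => β).sum_comp, Fintype.sum_prod_type]
    refine sum_congr rfl fun m _ => sum_congr rfl fun f _ => ?_
    simp [Fin.consEquiv, List.ofFn_succ]

lemma sum_prod_update {R : Type*} [Semiring R] {β : Type*} [Fintype β] :
    ∀ (n : ℕ) (X : Fin n → R) (k : Fin n) (Y : β → R),
    ∑ g, (List.ofFn (Function.update X k (Y g))).prod = (List.ofFn (Function.update X k (∑ g, Y g))).prod := by
  intro n
  induction n with
  | zero => intro _ k; exact k.elim0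
  | succ n ih =>
    intro X k Y
    refine Fin.cases ?_ (fun k => ?_) k
    · simp only [List.ofFn_succ, List.prod_cons, Function.update_self]
      rw [sum_mul]
      refine sum_congr rfl fun g _ => ?_
      simp [Function.update_of_ne (Fin.succ_ne_zero _)]
    · have e : ∀ y, (fun i : Fin n => Function.update X k.succ y i.succ) = Function.update (fun i => X i.succ) k y := by
        intro y; funext i
        by_cases hi : i = k
        · subst hi; simp
        · rw [Function.update_of_ne hi, Function.update_of_ne (fun h => hi (Fin.succ_injective _ h))]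
      simp only [List.ofFn_succ, List.prod_cons, Function.update_of_ne (Fin.succ_ne_zero k).symm, e]
      rw [← mul_sum, ih]

lemma norm_prod_ofFn_le [Nonempty ι] {B : ℝ} (hB : 0 ≤ B) : ∀ (n : ℕ) (X : Fin n → Matrix ι ι ℝ),
    (∀ k, ‖X k‖ ≤ B) → ‖(List.ofFn X).prod‖ ≤ B ^ n := by
  intro n
  induction n with
  | zero => intro X _; simp
  | succ n ih =>
    intro X hX
    rw [List.ofFn_succ, List.prod_cons, pow_succ']
    exact (norm_mul_le _ _).trans (mul_le_mul (hX 0) (ih _ fun k => hX _) (norm_nonneg _) hB)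

variable {α : Type*} [Fintype α] {M : ℕ}

lemma sum_prod_eq_zero {n : ℕ} (A : Fin n → α → Matrix ι ι ℝ) (hA : ∀ k, ∑ g, A k g = 0)
    (f : Fin n → Fin M) {k0 : Fin n} (hk : ∀ k, f k = f k0 → k = k0) :
    ∑ u : Fin M → α, (List.ofFn fun k => A k (u (f k))).prod = 0 := by
  classical
  rcases isEmpty_or_nonempty α with h | h
  · have : IsEmpty (Fin M → α) := ⟨fun u => h.false (u (f k0))⟩
    simp
  set F : (Fin M → α) → Matrix ι ι ℝ := fun u => (List.ofFn fun k => A k (u (f k))).prod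
  have h1 : ∀ u, ∑ g, F (Function.update u (f k0) g) = 0 := fun u => by
    have e : ∀ g, (fun k => A k (Function.update u (f k0) g (f k))) =
        Function.update (fun k => A k (u (f k))) k0 (A k0 g) := fun g => by
      funext k
      by_cases hk' : k = k0
      · subst hk'; simp
      · rw [Function.update_of_ne hk', Function.update_of_ne fun h => hk' (hk k h)]
    simp only [F, e]
    rw [sum_prod_update, hA]
    refine List.prod_eq_zero (List.mem_ofFn.2 ⟨k0, ?_⟩)
    simp
  have h2 : ∑ p : (Fin M → α) × α, F (Function.update p.1 (f k0) p.2) = ∑ p : (Fin M → α) × α, F p.1 :=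
    Function.Bijective.sum_comp (e := fun p : (Fin M → α) × α => (Function.update p.1 (f k0) p.2, p.1 (f k0)))
      (Function.Involutive.bijective fun p => by simp) fun p => F p.1
  simp only [Fintype.sum_prod_type, h1, sum_const_zero, sum_const, card_univ] at h2
  rw [← smul_sum] at h2
  rw [← Nat.cast_smul_eq_nsmul ℝ] at h2
  exact (smul_eq_zero.1 h2.symm).resolve_left (by exact_mod_cast Fintype.card_ne_zero)

lemma card_paired (hM : 0 < M) :
    (univ.filter fun f : Fin 8 → Fin M => ∀ k0, ∃ k, f k = f k0 ∧ k ≠ k0).card ≤ M ^ 4 * 4 ^ 8 := by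
  classical
  have : Nonempty (Fin M) := ⟨⟨0, hM⟩⟩
  refine le_trans (card_le_card (t := (univ : Finset ((Fin 4 → Fin M) × (Fin 8 → Fin 4))).image fun p => p.1 ∘ p.2)
    fun f hf => ?_) (card_image_le.trans_eq (by simp))
  simp only [mem_filter, mem_univ, true_and] at hf
  set T := univ.image f
  have hT : T.card ≤ 4 := by
    have h : (univ : Finset (Fin 8)).card = ∑ t ∈ T, (univ.filter fun k => f k = t).card :=
      card_eq_sum_card_fiberwise fun k hk => mem_image_of_mem f hk
    have h2 : T.card • 2 ≤ ∑ t ∈ T, (univ.filter fun k => f k = t).card := card_nsmul_le_sum _ _ _ fun t ht => by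
      obtain ⟨k0, _, rfl⟩ := mem_image.1 ht
      obtain ⟨k, hk, hne⟩ := hf k0
      exact Finset.one_lt_card.2 ⟨k, by simp [hk], k0, by simp, hne⟩
    rw [card_univ, Fintype.card_fin] at h
    rw [smul_eq_mul] at h2
    omega
  let e : T ↪ Fin 4 := T.equivFin.toEmbedding.trans (Fin.castLEEmb hT)
  refine mem_image.2 ⟨(Function.extend e Subtype.val fun _ => Classical.arbitrary _,
    fun k => e ⟨f k, mem_image_of_mem f (mem_univ k)⟩), mem_univ _, funext fun k => ?_⟩
  show Function.extend e Subtype.val (fun _ => Classical.arbitrary (Fin M)) (e ⟨f k, mem_image_of_mem f (mem_univ k)⟩) = f k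
  rw [e.injective.extend_apply]

/-- The eighth moment of a centred independent sum. -/
theorem moment8 (W : α → Matrix ι ι ℝ) {B : ℝ} (hB : 0 ≤ B) (hW : ∀ g, ‖W g‖ ≤ B) (h0 : ∑ g, W g = 0)
    (hM : 0 < M) :
    ∑ u : Fin M → α, ‖∑ m, W (u m)‖ ^ 8 ≤
      (M:ℝ) ^ 4 * 4 ^ 8 * ((Fintype.card (Fin M → α) : ℝ) * (Fintype.card ι * B ^ 8)) := by
  classical
  rcases isEmpty_or_nonempty ι with h | h
  · refine le_trans (le_of_eq (sum_eq_zero fun u _ => ?_)) (by positivity)
    rw [Subsingleton.elim (∑ m, W (u m)) 0, norm_zero, zero_pow (by norm_num)]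
  set A : Fin 8 → α → Matrix ι ι ℝ := fun k g => if k.val % 2 = 0 then (W g)ᵀ else W g
  have hA0 : ∀ k, ∑ g, A k g = 0 := fun k => by
    simp only [A]; split
    · rw [← Matrix.transpose_sum, h0, Matrix.transpose_zero]
    · exact h0
  have hAB : ∀ k g, ‖A k g‖ ≤ B := fun k g => by
    simp only [A]; split
    · rw [norm_transpose]; exact hW g
    · exact hW g
  have hS : ∀ u : Fin M → α, ((∑ m, W (u m))ᵀ * ∑ m, W (u m)) ^ 4 = (List.ofFn fun k => ∑ m, A k (u m)).prod := by
    intro u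
    simp only [A, List.ofFn_succ, List.ofFn_zero, List.prod_cons, List.prod_nil, mul_one,
      Fin.val_zero, Fin.val_succ, ← Matrix.transpose_sum]
    simp only [pow_succ, pow_zero, one_mul, Matrix.mul_assoc]
    norm_num [← Matrix.transpose_sum]
  have hb : ∀ f : Fin 8 → Fin M, |∑ u : Fin M → α, ((List.ofFn fun k => A k (u (f k))).prod).trace| ≤
      (Fintype.card (Fin M → α) : ℝ) * (Fintype.card ι * B ^ 8) := fun f => by
    refine (abs_sum_le_sum_abs _ _).trans ((sum_le_card_nsmul univ _ _ fun u _ => ?_).trans_eq (by rw [card_univ, nsmul_eq_mul]))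
    exact (abs_trace_le _).trans (mul_le_mul_of_nonneg_left (norm_prod_ofFn_le hB 8 _ fun k => hAB k _) (Nat.cast_nonneg _))
  set P := univ.filter fun f : Fin 8 → Fin M => ∀ k0, ∃ k, f k = f k0 ∧ k ≠ k0
  calc ∑ u : Fin M → α, ‖∑ m, W (u m)‖ ^ 8 ≤ ∑ u : Fin M → α, (((∑ m, W (u m))ᵀ * ∑ m, W (u m)) ^ 4).trace :=
        sum_le_sum fun u _ => pow8_le_trace _
    _ = ∑ f : Fin 8 → Fin M, ∑ u : Fin M → α, ((List.ofFn fun k => A k (u (f k))).prod).trace := by
        simp only [hS, prod_ofFn_sum, Matrix.trace_sum]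
        exact sum_comm
    _ = ∑ f ∈ P, ∑ u : Fin M → α, ((List.ofFn fun k => A k (u (f k))).prod).trace := by
        refine (sum_subset (filter_subset _ _) fun f _ hf => ?_).symm
        simp only [P, mem_filter, mem_univ, true_and, not_forall, not_exists, not_and, not_not] at hf
        obtain ⟨k0, hk0⟩ := hf
        rw [← Matrix.trace_sum, sum_prod_eq_zero A hA0 f hk0, Matrix.trace_zero]
    _ ≤ ∑ f ∈ P, (Fintype.card (Fin M → α) : ℝ) * (Fintype.card ι * B ^ 8) :=
        sum_le_sum fun f _ => (le_abs_self _).trans (hb f)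
    _ ≤ _ := by
        rw [sum_const, nsmul_eq_mul]
        refine mul_le_mul_of_nonneg_right ?_ (by positivity)
        exact_mod_cast card_paired hM

end Vale.Agent.P372.Random
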