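import Vale.Agent.P372.Random.Moment
import Vale.Agent.P157.Upper

/-!
Random sign matrices with bounded trilinear form whose doubled sum is of norm `o(d)`.
-/

open Finset Matrix
open scoped Matrix.Norms.L2Operator

noncomputable section

namespace Vale.Agent.P372.Random

variable {d : ℕ}

/-- `±1` -/
def sgn (b : Bool) : ℝ := if b then 1 else -1

/-- the sign matrix, scaled to unit Frobenius rows -/
def mat (s : Fin d → Fin d → Bool) : Matrix (Fin d) (Fin d) ℝ := fun i j => sgn (s i j) / √(d:ℝ)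

/-- the trilinear form -/
def tri (u : Fin d → Fin d → Fin d → Bool) (x y z : Fin d → ℝ) : ℝ :=
  ∑ m, ∑ i, ∑ j, z m * mat (u m) i j * x i * y j

lemma mat_sq (s : Fin d → Fin d → Bool) (i j : Fin d) : mat s i j ^ 2 = 1 / d := by
  have h : sgn (s i j) ^ 2 = 1 := by cases s i j <;> simp [sgn]
  rw [mat, div_pow, h, Real.sq_sqrt (Nat.cast_nonneg d)]

lemma mgf_sign (a : Fin d → Fin d → Fin d → ℝ) (l : ℝ) :
    ∑ u : Fin d → Fin d → Fin d → Bool, Real.exp (l * ∑ m, ∑ i, ∑ j, a m i j * sgn (u m i j)) ≤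
      (Fintype.card (Fin d → Fin d → Fin d → Bool) : ℝ) * Real.exp (l ^ 2 / 2 * ∑ m, ∑ i, ∑ j, a m i j ^ 2) := by
  simp only [mul_sum, Real.exp_sum]
  rw [← Fintype.prod_sum (fun m (s : Fin d → Fin d → Bool) => ∏ i, ∏ j, Real.exp (l * (a m i j * sgn (s i j))))]
  simp only [Fintype.card_fun, Fintype.card_fin, Fintype.card_bool, Nat.cast_pow]
  rw [← Fin.prod_const, ← prod_mul_distrib]
  refine prod_le_prod (fun m _ => sum_nonneg fun s _ => by positivity) fun m _ => ?_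
  rw [← Fintype.prod_sum (fun i (s : Fin d → Bool) => ∏ j, Real.exp (l * (a m i j * sgn (s j)))),
    ← Fin.prod_const, ← prod_mul_distrib]
  refine prod_le_prod (fun i _ => sum_nonneg fun s _ => by positivity) fun i _ => ?_
  rw [← Fintype.prod_sum (fun j (b : Bool) => Real.exp (l * (a m i j * sgn b))), ← Fin.prod_const,
    ← prod_mul_distrib]
  refine prod_le_prod (fun j _ => sum_nonneg fun s _ => (Real.exp_pos _).le) fun j _ => ?_
  rw [Fintype.sum_bool, Nat.cast_ofNat]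
  have h := Real.cosh_le_exp_half_sq (l * a m i j)
  rw [Real.cosh_eq] at h
  simp only [sgn, if_true, Bool.false_eq_true, if_false, mul_one, mul_neg]
  rw [show l ^ 2 / 2 * a m i j ^ 2 = (l * a m i j) ^ 2 / 2 by ring]
  linarith

lemma tail_sign (a : Fin d → Fin d → Fin d → ℝ) {t v : ℝ} (ht : 0 ≤ t) (hv : 0 < v)
    (ha : ∑ m, ∑ i, ∑ j, a m i j ^ 2 ≤ v) :
    (((univ : Finset (Fin d → Fin d → Fin d → Bool)).filter fun u =>
        t < |∑ m, ∑ i, ∑ j, a m i j * sgn (u m i j)|).card : ℝ) ≤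
      2 * Fintype.card (Fin d → Fin d → Fin d → Bool) * Real.exp (-(t ^ 2 / (2 * v))) := by
  have one : ∀ a : Fin d → Fin d → Fin d → ℝ, ∑ m, ∑ i, ∑ j, a m i j ^ 2 ≤ v →
      (((univ : Finset (Fin d → Fin d → Fin d → Bool)).filter fun u =>
        t < ∑ m, ∑ i, ∑ j, a m i j * sgn (u m i j)).card : ℝ) ≤
      Fintype.card (Fin d → Fin d → Fin d → Bool) * Real.exp (-(t ^ 2 / (2 * v))) := by
    intro a ha
    set l := t / v with hldef
    have hl : 0 ≤ l := div_nonneg ht hv.le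
    set B := (univ : Finset (Fin d → Fin d → Fin d → Bool)).filter fun u =>
        t < ∑ m, ∑ i, ∑ j, a m i j * sgn (u m i j)
    have h1 : (B.card : ℝ) * Real.exp (l * t) ≤
        Fintype.card (Fin d → Fin d → Fin d → Bool) * Real.exp (l ^ 2 / 2 * v) := by
      refine le_trans ?_ ((mgf_sign a l).trans (mul_le_mul_of_nonneg_left
        (Real.exp_le_exp.2 (mul_le_mul_of_nonneg_left ha (by positivity))) (Nat.cast_nonneg _)))
      rw [← nsmul_eq_mul, ← sum_const]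
      exact (sum_le_sum fun u hu => Real.exp_le_exp.2 (mul_le_mul_of_nonneg_left (mem_filter.1 hu).2.le hl)).trans
        (sum_le_sum_of_subset_of_nonneg (filter_subset _ _) fun u _ _ => (Real.exp_pos _).le)
    rw [← le_div_iff₀ (Real.exp_pos _), mul_div_assoc, ← Real.exp_sub] at h1
    refine h1.trans_eq ?_
    congr 2
    rw [hldef]; field_simp; ring
  have h2 := one (fun m i j => -a m i j) (by simpa using ha)
  simp only [neg_mul, sum_neg_distrib] at h2
  refine le_trans ?_ ((add_le_add (one a ha) h2).trans_eq (by ring))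
  exact_mod_cast (card_le_card fun u hu => by
    simp only [mem_filter, mem_univ, true_and, mem_union, lt_abs] at hu ⊢
    exact hu).trans (card_union_le _ _)

/-- bounded trilinear form -/
def TriGood (u : Fin d → Fin d → Fin d → Bool) : Prop :=
  ∀ x y z : Fin d → ℝ, |tri u x y z| ≤ 60 * √(∑ i, x i ^ 2) * √(∑ i, y i ^ 2) * √(∑ i, z i ^ 2)

lemma tri_good_of_net (u : Fin d → Fin d → Fin d → Bool) (hd : 0 < d) (S : Finset (P157.Vec d))
    (hcov : ∀ w : P157.Vec d, ‖w‖ = 1 → ∃ P ∈ S, ‖w - P‖ ≤ (1:ℝ) / 5 / 2)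
    (hnear : ∀ P ∈ S, |‖P‖ - 1| ≤ (1:ℝ) / 5 / 2)
    (hb : ∀ P ∈ S, ∀ Q ∈ S, ∀ R ∈ S, |tri u P Q R| ≤ 30) : TriGood u := by
  set T := fun x y z : P157.Vec d => tri u x y z
  have hsph : (Metric.sphere (0 : P157.Vec d) 1).Nonempty :=
    ⟨EuclideanSpace.single ⟨0, hd⟩ (1:ℝ), by simp⟩
  obtain ⟨⟨x0, y0, z0⟩, ⟨hx0, hy0, hz0⟩, hmax⟩ :=
    ((isCompact_sphere (0 : P157.Vec d) 1).prod ((isCompact_sphere (0 : P157.Vec d) 1).prod
      (isCompact_sphere (0 : P157.Vec d) 1))).exists_isMaxOn (hsph.prod (hsph.prod hsph))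
      (f := fun p => |T p.1 p.2.1 p.2.2|) (by
        refine Continuous.continuousOn ?_
        simp only [T, tri]; fun_prop)
  set K := |T x0 y0 z0|
  have hK : 0 ≤ K := abs_nonneg _
  have smul3 : ∀ (p q r : ℝ) (x y z : P157.Vec d), T (p • x) (q • y) (r • z) = p * q * r * T x y z := by
    intro p q r x y z
    simp only [T, tri, PiLp.smul_apply, smul_eq_mul, mul_sum]
    exact sum_congr rfl fun m _ => sum_congr rfl fun i _ => sum_congr rfl fun j _ => by ring
  have hgen : ∀ x y z : P157.Vec d, |T x y z| ≤ K * ‖x‖ * ‖y‖ * ‖z‖ := by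
    intro x y z
    rcases eq_or_ne x 0 with rfl | hx
    · simp [T, tri]
    rcases eq_or_ne y 0 with rfl | hy
    · simp [T, tri]
    rcases eq_or_ne z 0 with rfl | hz
    · simp [T, tri]
    have nx := norm_pos_iff.2 hx; have ny := norm_pos_iff.2 hy; have nz := norm_pos_iff.2 hz
    have h : |T (‖x‖⁻¹ • x) (‖y‖⁻¹ • y) (‖z‖⁻¹ • z)| ≤ K :=
      hmax (a := (‖x‖⁻¹ • x, ‖y‖⁻¹ • y, ‖z‖⁻¹ • z))
        ⟨by simp [norm_smul, nx.ne'], by simp [norm_smul, ny.ne'], by simp [norm_smul, nz.ne']⟩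
    rw [smul3, abs_mul, abs_of_pos (by positivity : 0 < ‖x‖⁻¹ * ‖y‖⁻¹ * ‖z‖⁻¹)] at h
    have h2 := mul_le_mul_of_nonneg_left h (by positivity : 0 ≤ ‖x‖ * ‖y‖ * ‖z‖)
    calc |T x y z| = ‖x‖ * ‖y‖ * ‖z‖ * (‖x‖⁻¹ * ‖y‖⁻¹ * ‖z‖⁻¹ * |T x y z|) := by field_simp
      _ ≤ _ := h2.trans_eq (by ring)
  simp only [mem_sphere_zero_iff_norm] at hx0 hy0 hz0
  obtain ⟨P, hP, dP⟩ := hcov x0 hx0
  obtain ⟨Q, hQ, dQ⟩ := hcov y0 hy0
  obtain ⟨R, hR, dR⟩ := hcov z0 hz0
  have bP : ‖P‖ ≤ 11 / 10 := by have := (abs_le.1 (hnear P hP)).2; linarith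
  have bQ : ‖Q‖ ≤ 11 / 10 := by have := (abs_le.1 (hnear Q hQ)).2; linarith
  have e : T x0 y0 z0 = T P Q R + T (x0 - P) y0 z0 + T P (y0 - Q) z0 + T P Q (z0 - R) := by
    simp only [T, tri, PiLp.sub_apply, ← sum_add_distrib]
    exact sum_congr rfl fun m _ => sum_congr rfl fun i _ => sum_congr rfl fun j _ => by ring
  have e1 : |T (x0 - P) y0 z0| ≤ K * (1 / 5 / 2) := (hgen _ _ _).trans (by
    rw [hy0, hz0, mul_one, mul_one]; exact mul_le_mul_of_nonneg_left dP hK)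
  have e2 : |T P (y0 - Q) z0| ≤ K * (11 / 10) * (1 / 5 / 2) := (hgen _ _ _).trans (by
    rw [hz0, mul_one]; gcongr)
  have e3 : |T P Q (z0 - R)| ≤ K * (11 / 10) * (11 / 10) * (1 / 5 / 2) := (hgen _ _ _).trans (by gcongr)
  have hK60 : K ≤ 60 := by
    have h0 : |T P Q R| ≤ 30 := hb P hP Q hQ R hR
    have hKe : K = |T P Q R + T (x0 - P) y0 z0 + T P (y0 - Q) z0 + T P Q (z0 - R)| := congrArg abs e
    linarith [abs_add_le (T P Q R + T (x0 - P) y0 z0 + T P (y0 - Q) z0) (T P Q (z0 - R)),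
      abs_add_le (T P Q R + T (x0 - P) y0 z0) (T P (y0 - Q) z0), abs_add_le (T P Q R) (T (x0 - P) y0 z0)]
  intro x y z
  have h := (hgen (WithLp.toLp 2 x) (WithLp.toLp 2 y) (WithLp.toLp 2 z)).trans
    (mul_le_mul_of_nonneg_right (mul_le_mul_of_nonneg_right (mul_le_mul_of_nonneg_right hK60
      (norm_nonneg _)) (norm_nonneg _)) (norm_nonneg _))
  simpa [T, EuclideanSpace.norm_eq] using h

open Classical in
lemma card_not_triGood (hd : 0 < d) :
    4 * ((univ : Finset (Fin d → Fin d → Fin d → Bool)).filter fun u => ¬TriGood u).card ≤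
      Fintype.card (Fin d → Fin d → Fin d → Bool) := by
  obtain ⟨S, hS, hcov, hnear, hcard⟩ := P157.exists_net (δ := 1/5) (by norm_num) hd
  set N : ℝ := ((Fintype.card (Fin d → Fin d → Fin d → Bool) : ℕ) : ℝ)
  set Bad := fun q : P157.Vec d × P157.Vec d × P157.Vec d =>
    (univ : Finset (Fin d → Fin d → Fin d → Bool)).filter fun u => 30 < |tri u q.1 q.2.1 q.2.2|
  have hsub : (univ.filter fun u => ¬TriGood u) ⊆ (S ×ˢ S ×ˢ S).biUnion Bad := by
    intro u hu
    by_contra h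
    refine (mem_filter.1 hu).2 (tri_good_of_net u hd S hcov hnear fun P hP Q hQ R hR => not_lt.1 fun hlt => h ?_)
    exact mem_biUnion.2 ⟨(P, Q, R), by simp [hP, hQ, hR], by simp [Bad, hlt]⟩
  have hd' : (0:ℝ) < d := by exact_mod_cast hd
  have hone : ∀ q ∈ S ×ˢ S ×ˢ S, ((Bad q).card : ℝ) ≤ 2 * N * Real.exp (-(225 * d)) := by
    rintro ⟨P, Q, R⟩ hq
    simp only [mem_product] at hq
    have b : ∀ W ∈ S, ‖W‖ ≤ 11 / 10 := fun W hW => by have := (abs_le.1 (hnear W hW)).2; linarith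
    have e : ∀ u, tri u P Q R = ∑ m, ∑ i, ∑ j, (R m * P i * Q j / √(d:ℝ)) * sgn (u m i j) := fun u =>
      sum_congr rfl fun m _ => sum_congr rfl fun i _ => sum_congr rfl fun j _ => by simp only [mat]; ring
    have hv : ∑ m, ∑ i, ∑ j, (R m * P i * Q j / √(d:ℝ)) ^ 2 ≤ 2 / d := by
      have : ∑ m, ∑ i, ∑ j, (R m * P i * Q j / √(d:ℝ)) ^ 2 = ‖R‖ ^ 2 * ‖P‖ ^ 2 * ‖Q‖ ^ 2 / d := by
        simp only [div_pow, mul_pow, Real.sq_sqrt hd'.le, ← sum_div, ← mul_sum, ← sum_mul,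
          EuclideanSpace.real_norm_sq_eq]
      rw [this]
      refine div_le_div_of_nonneg_right ?_ hd'.le
      calc ‖R‖ ^ 2 * ‖P‖ ^ 2 * ‖Q‖ ^ 2 ≤ (11/10:ℝ) ^ 2 * (11/10:ℝ) ^ 2 * (11/10:ℝ) ^ 2 := by
            gcongr <;> exact b _ (by tauto)
        _ ≤ 2 := by norm_num
    have h := tail_sign (fun m i j => R m * P i * Q j / √(d:ℝ)) (t := 30) (v := 2 / d) (by norm_num) (by positivity) hv
    simp only [Bad, e]
    refine h.trans (le_of_eq ?_)
    congr 2
    field_simp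
    norm_num
  have hlog : Real.log 4 ≤ 3 := by
    have := Real.log_le_sub_one_of_pos (show (0:ℝ) < 4 by norm_num); linarith
  have hS3 : ((S ×ˢ S ×ˢ S).card : ℝ) ≤ Real.exp (162 * d) := by
    rw [card_product, card_product, Nat.cast_mul, Nat.cast_mul]
    refine (mul_le_mul hcard (mul_le_mul hcard hcard (Nat.cast_nonneg _) (Real.exp_pos _).le) (by positivity)
      (Real.exp_pos _).le).trans ?_
    rw [← Real.exp_add, ← Real.exp_add, Real.exp_le_exp]
    norm_num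
    nlinarith
  have h1 : (4:ℝ) * ((univ : Finset (Fin d → Fin d → Fin d → Bool)).filter fun u => ¬TriGood u).card ≤ N := by
    have h : (((univ : Finset (Fin d → Fin d → Fin d → Bool)).filter fun u => ¬TriGood u).card : ℝ) ≤
        Real.exp (162 * d) * (2 * N * Real.exp (-(225 * d))) := by
      refine le_trans (le_trans (Nat.cast_le.2 ((card_le_card hsub).trans card_biUnion_le)) ?_)
        (mul_le_mul_of_nonneg_right hS3 (by positivity))
      rw [Nat.cast_sum, ← nsmul_eq_mul, ← sum_const]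
      exact sum_le_sum hone
    have h8 : 8 * (Real.exp (162 * d) * Real.exp (-(225 * d))) ≤ 1 := by
      rw [← Real.exp_add]
      have h63 : (8:ℝ) ≤ Real.exp (63 * d) := by
        have := Real.add_one_le_exp (63 * (d:ℝ))
        have : (1:ℝ) ≤ d := by exact_mod_cast hd
        linarith
      have e : Real.exp (162 * d + -(225 * d)) * Real.exp (63 * d) = 1 := by
        rw [← Real.exp_add, show (162 * (d:ℝ) + -(225 * d) + 63 * d) = 0 by ring, Real.exp_zero]
      nlinarith [Real.exp_pos (162 * (d:ℝ) + -(225 * d))]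
    have hN : 0 ≤ N := Nat.cast_nonneg _
    nlinarith
  rw [← Nat.cast_le (α := ℝ), Nat.cast_mul, Nat.cast_ofNat]
  exact h1

/-- sign matrices of bounded norm -/
abbrev G (d : ℕ) := {s : Fin d → Fin d → Bool // ‖mat s‖ ≤ 60}

lemma mem_G {u : Fin d → Fin d → Fin d → Bool} (hu : TriGood u) (m : Fin d) : ‖mat (u m)‖ ≤ 60 := by
  refine norm_le_of_sum_sq (by norm_num) fun y => ?_
  set x := mat (u m) *ᵥ y
  have h := hu x y (Pi.single m 1)
  have e : tri u x y (Pi.single m 1) = ∑ i, x i ^ 2 := by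
    simp only [tri, Pi.single_apply, ite_mul, one_mul, zero_mul]
    rw [sum_eq_single m (fun b _ hb => by simp [hb]) (by simp)]
    refine sum_congr rfl fun i _ => ?_
    rw [sq]
    conv_rhs => arg 1; simp only [x, Matrix.mulVec, dotProduct]
    rw [sum_mul]
    exact sum_congr rfl fun j _ => by simp; ring
  have h1 : ∑ i, (Pi.single m (1:ℝ) : Fin d → ℝ) i ^ 2 = 1 := by simp [Pi.single_apply]
  rw [e, h1, Real.sqrt_one, mul_one, abs_of_nonneg (sum_nonneg fun i _ => sq_nonneg _)] at h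
  set a := √(∑ i, x i ^ 2)
  set b := √(∑ i, y i ^ 2)
  have ha : a * a = ∑ i, x i ^ 2 := Real.mul_self_sqrt (sum_nonneg fun i _ => sq_nonneg _)
  have hb : b * b = ∑ i, y i ^ 2 := Real.mul_self_sqrt (sum_nonneg fun i _ => sq_nonneg _)
  nlinarith [sq_nonneg (a - 60 * b)]

/-- mean of `U ⊗ Uᵀ` -/
def Pm (d : ℕ) : Matrix (Fin d × Fin d) (Fin d × Fin d) ℝ :=
  fun p q => if p.1 = q.2 ∧ q.1 = p.2 then 1 / (d:ℝ) else 0

/-- centred `U ⊗ Uᵀ` -/
def W (s : Fin d → Fin d → Bool) : Matrix (Fin d × Fin d) (Fin d × Fin d) ℝ :=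
  fun p q => mat s p.1 q.1 * mat s q.2 p.2 - Pm d p q

lemma flip_mem {s : Fin d → Fin d → Bool} (hs : ‖mat s‖ ≤ 60) (a b : Fin d → Bool) :
    ‖mat fun i j => ((s i j).xor (a i)).xor (b j)‖ ≤ 60 := by
  set D := fun c : Fin d → Bool => Matrix.diagonal fun i => sgn (!(c i))
  have hD : ∀ c, ‖D c‖ ≤ 1 := fun c => by
    refine norm_le_of_sum_sq zero_le_one fun v => le_of_eq ?_
    rw [one_pow, one_mul]
    refine sum_congr rfl fun i _ => ?_
    simp only [D, Matrix.mulVec_diagonal, mul_pow]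
    cases c i <;> simp [sgn]
  have e : (mat fun i j => ((s i j).xor (a i)).xor (b j)) = D a * mat s * D b := by
    funext i j
    simp only [D, Matrix.mul_diagonal, Matrix.diagonal_mul, mat]
    cases s i j <;> cases a i <;> cases b j <;> simp [sgn] <;> ring
  rw [e]
  calc ‖D a * mat s * D b‖ ≤ ‖D a‖ * ‖mat s‖ * ‖D b‖ :=
        (norm_mul_le _ _).trans (mul_le_mul_of_nonneg_right (norm_mul_le _ _) (norm_nonneg _))
    _ ≤ 1 * 60 * 1 := mul_le_mul (mul_le_mul (hD a) hs (norm_nonneg _) zero_le_one) (hD b) (norm_nonneg _) (by norm_num)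
    _ = 60 := by norm_num

lemma sum_W : ∑ g : G d, W g.1 = 0 := by
  funext ⟨i, j⟩ ⟨a, b⟩
  simp only [Matrix.sum_apply, W, Matrix.zero_apply, Pm]
  by_cases h : i = b ∧ a = j
  · obtain ⟨rfl, rfl⟩ := h
    refine sum_eq_zero fun g _ => ?_
    rw [if_pos ⟨rfl, rfl⟩, ← sq, mat_sq, sub_self]
  simp only [if_neg h, sub_zero]
  set c1 : Fin d → Bool := fun k => decide (i ≠ b) && decide (k = i)
  set c2 : Fin d → Bool := fun k => decide (i = b) && decide (k = a)
  set φ : G d → G d := fun g => ⟨fun k l => ((g.1 k l).xor (c1 k)).xor (c2 l), flip_mem g.2 c1 c2⟩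
  have hinv : Function.Involutive φ := fun g => by
    apply Subtype.ext; funext k l
    simp only [φ]
    cases g.1 k l <;> cases c1 k <;> cases c2 l <;> rfl
  have hneg : ∀ g : G d, mat (φ g).1 i a * mat (φ g).1 b j = -(mat g.1 i a * mat g.1 b j) := fun g => by
    by_cases hib : i = b
    · have haj : a ≠ j := fun e => h ⟨hib, e⟩
      simp only [φ, c1, c2, hib, mat, haj.symm]
      cases g.1 b a <;> cases g.1 b j <;> simp [sgn] <;> ring
    · simp only [φ, c1, c2, mat, hib]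
      simp only [Ne.symm hib]
      cases g.1 i a <;> cases g.1 b j <;> simp [sgn, hib] <;> ring
  have h1 := Function.Bijective.sum_comp hinv.bijective fun g : G d => mat g.1 i a * mat g.1 b j
  simp only [hneg, sum_neg_distrib] at h1
  linarith

lemma norm_W (hd : 0 < d) (g : G d) : ‖W g.1‖ ≤ 3601 := by
  set U := mat g.1
  have hU : ‖U‖ ≤ 60 := g.2
  have e : W g.1 = Matrix.of (fun p q : Fin d × Fin d => U p.1 q.1 * U q.2 p.2) - Pm d := rfl
  rw [e]
  refine (norm_sub_le _ _).trans ((add_le_add (norm_le_of_sum_sq (c := 3600) (by norm_num) fun v => ?_)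
    (norm_le_of_sum_sq (c := 1) zero_le_one fun v => ?_)).trans_eq (by norm_num))
  · set z : Fin d → Fin d → ℝ := fun a j => (Uᵀ *ᵥ fun b => v (a, b)) j
    have e1 : ∀ i j, ((Matrix.of fun p q : Fin d × Fin d => U p.1 q.1 * U q.2 p.2) *ᵥ v) (i, j) =
        (U *ᵥ fun a => z a j) i := fun i j => by
      simp only [z, Matrix.mulVec, dotProduct, Matrix.of_apply, Matrix.transpose_apply, Fintype.sum_prod_type, mul_sum]
      exact sum_congr rfl fun a _ => sum_congr rfl fun b _ => by ring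
    rw [Fintype.sum_prod_type, Fintype.sum_prod_type, sum_comm]
    simp only [e1]
    have hU2 : ‖U‖ ^ 2 ≤ 3600 := by nlinarith [norm_nonneg U]
    have hz : ∀ a, ∑ j, z a j ^ 2 ≤ 3600 * ∑ b, v (a, b) ^ 2 := fun a =>
      (sum_sq_mulVec_le Uᵀ _).trans (by
        rw [norm_transpose]; exact mul_le_mul_of_nonneg_right hU2 (sum_nonneg fun b _ => sq_nonneg _))
    calc ∑ j, ∑ i, (U *ᵥ fun a => z a j) i ^ 2 ≤ ∑ j, 3600 * ∑ a, z a j ^ 2 :=
          sum_le_sum fun j _ => (sum_sq_mulVec_le U _).trans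
            (mul_le_mul_of_nonneg_right hU2 (sum_nonneg fun b _ => sq_nonneg _))
      _ = 3600 * ∑ a, ∑ j, z a j ^ 2 := by rw [← mul_sum, sum_comm]
      _ ≤ 3600 * ∑ a, 3600 * ∑ b, v (a, b) ^ 2 := mul_le_mul_of_nonneg_left (sum_le_sum fun a _ => hz a) (by norm_num)
      _ = _ := by rw [← mul_sum]; ring
  · have hd1 : (1:ℝ) / d ≤ 1 := by rw [div_le_one (by exact_mod_cast hd)]; exact_mod_cast hd
    have e2 : ∀ p : Fin d × Fin d, (Pm d *ᵥ v) p = 1 / d * v p.swap := fun p => by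
      rw [Matrix.mulVec, dotProduct, sum_eq_single p.swap]
      · simp [Pm]
      · intro q _ hq
        have : ¬(p.1 = q.2 ∧ q.1 = p.2) := fun h => hq (Prod.ext h.2 h.1.symm)
        simp [Pm, this]
      · simp
    simp only [e2, mul_pow, one_pow, one_mul]
    rw [← mul_sum, show ∑ i : Fin d × Fin d, v i.swap ^ 2 = ∑ i, v i ^ 2 from
      (Equiv.prodComm (Fin d) (Fin d)).sum_comp fun q => v q ^ 2]
    exact mul_le_of_le_one_left (sum_nonneg fun q _ => sq_nonneg _) (pow_le_one₀ (by positivity) hd1)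

/-- **Sign matrices for the construction.** -/
theorem exists_signs : ∃ C : ℝ, ∀ ε : ℝ, 0 < ε → ∃ d0 : ℕ, ∀ d : ℕ, d0 ≤ d →
    ∃ U : Fin d → Matrix (Fin d) (Fin d) ℝ, (∀ m i j, U m i j ^ 2 = 1 / d) ∧
      (∀ x y z : Fin d → ℝ, |∑ m, ∑ i, ∑ j, z m * U m i j * x i * y j| ≤
        C * √(∑ i, x i ^ 2) * √(∑ i, y i ^ 2) * √(∑ i, z i ^ 2)) ∧
      (∀ X Y : Fin d → Fin d → ℝ, |∑ m, ∑ i, ∑ a, ∑ j, ∑ b, U m i a * U m b j * X i j * Y a b| ≤
        ε * d * √(∑ i, ∑ j, X i j ^ 2) * √(∑ i, ∑ j, Y i j ^ 2)) := by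
  classical
  refine ⟨60, fun ε hε => ?_⟩
  set K0 : ℝ := 2 * 4 ^ 8 * (3601:ℝ) ^ 8 / (ε / 2) ^ 8 + 2 / ε + 1
  refine ⟨⌈K0⌉₊, fun d hd0 => ?_⟩
  have hK : K0 ≤ d := Nat.ceil_le.1 hd0
  have h1d : (1:ℝ) ≤ d := le_trans (by simp only [K0]; linarith [show (0:ℝ) ≤ 2 * 4 ^ 8 * (3601:ℝ) ^ 8 / (ε / 2) ^ 8 by positivity, show (0:ℝ) ≤ 2 / ε by positivity]) hK
  have hd : 0 < d := by exact_mod_cast (show (0:ℝ) < d by linarith)
  have hεd : 2 / ε ≤ d := le_trans (by simp only [K0]; linarith [show (0:ℝ) ≤ 2 * 4 ^ 8 * (3601:ℝ) ^ 8 / (ε / 2) ^ 8 by positivity]) hK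
  have hbig : 2 * 4 ^ 8 * (3601:ℝ) ^ 8 / (ε / 2) ^ 8 ≤ d := le_trans (by simp only [K0]; linarith [show (0:ℝ) ≤ 2 / ε by positivity]) hK
  have hmom := moment8 (M := d) (fun g : G d => W g.1) (by norm_num) (norm_W hd) sum_W hd
  set L := ε / 2 * d with hL
  set B := (univ : Finset (Fin d → G d)).filter fun v => L < ‖∑ m, W (v m).1‖
  have hB : (B.card : ℝ) * L ^ 8 ≤ (d:ℝ) ^ 4 * 4 ^ 8 *
      ((Fintype.card (Fin d → G d) : ℝ) * ((Fintype.card (Fin d × Fin d) : ℝ) * (3601:ℝ) ^ 8)) := by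
    refine le_trans ?_ hmom
    rw [← nsmul_eq_mul, ← sum_const]
    exact (sum_le_sum fun v hv => pow_le_pow_left₀ (by positivity) (mem_filter.1 hv).2.le 8).trans
      (sum_le_sum_of_subset_of_nonneg (filter_subset _ _) fun v _ _ => by positivity)
  have hB2 : 2 * (B.card : ℝ) ≤ Fintype.card (Fin d → G d) := by
    have hL8 : 0 < L ^ 8 := by positivity
    refine le_of_mul_le_mul_right ?_ hL8
    rw [mul_assoc]
    refine (mul_le_mul_of_nonneg_left hB zero_le_two).trans ?_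
    rw [div_le_iff₀ (by positivity)] at hbig
    rw [Fintype.card_prod, Fintype.card_fin, Nat.cast_mul]
    have : 2 * ((d:ℝ) ^ 4 * 4 ^ 8 * ((d:ℝ) * d * (3601:ℝ) ^ 8)) ≤ L ^ 8 := by
      calc 2 * ((d:ℝ) ^ 4 * 4 ^ 8 * ((d:ℝ) * d * (3601:ℝ) ^ 8)) = 2 * 4 ^ 8 * (3601:ℝ) ^ 8 * (d:ℝ) ^ 6 := by ring
        _ ≤ (d:ℝ) * (ε / 2) ^ 8 * (d:ℝ) ^ 6 := mul_le_mul_of_nonneg_right hbig (by positivity)
        _ ≤ (d:ℝ) * (ε / 2) ^ 8 * (d:ℝ) ^ 6 * d := le_mul_of_one_le_right (by positivity) h1d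
        _ = L ^ 8 := by rw [hL]; ring
    calc 2 * ((d:ℝ) ^ 4 * 4 ^ 8 * ((Fintype.card (Fin d → G d) : ℝ) * ((d:ℝ) * d * (3601:ℝ) ^ 8)))
        = (Fintype.card (Fin d → G d) : ℝ) * (2 * ((d:ℝ) ^ 4 * 4 ^ 8 * ((d:ℝ) * d * (3601:ℝ) ^ 8))) := by ring
      _ ≤ _ := mul_le_mul_of_nonneg_left this (Nat.cast_nonneg _)
  obtain ⟨u, hu, hS⟩ : ∃ u : Fin d → Fin d → Fin d → Bool, TriGood u ∧ ‖∑ m, W (u m)‖ ≤ L := by
    by_contra hne
    simp only [not_exists, not_and, not_le] at hne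
    have h1 : (univ.filter fun u : Fin d → Fin d → Fin d → Bool => TriGood u) ⊆ B.image fun v m => (v m).1 := by
      intro u hu
      have hu' := (mem_filter.1 hu).2
      exact mem_image.2 ⟨fun m => ⟨u m, mem_G hu' m⟩, mem_filter.2 ⟨mem_univ _, hne u hu'⟩, rfl⟩
    have h2 := (card_le_card h1).trans card_image_le
    have h3 : (univ.filter fun u : Fin d → Fin d → Fin d → Bool => TriGood u).card +
        (univ.filter fun u : Fin d → Fin d → Fin d → Bool => ¬TriGood u).card = (univ : Finset (Fin d → Fin d → Fin d → Bool)).card :=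
      card_filter_add_card_filter_not _
    have h4 := card_not_triGood hd
    have h5 : Fintype.card (Fin d → G d) ≤ Fintype.card (Fin d → Fin d → Fin d → Bool) :=
      Fintype.card_le_of_injective (fun v m => (v m).1) fun v w h => funext fun m => Subtype.ext (congrFun h m)
    have h6 : 2 * B.card ≤ Fintype.card (Fin d → G d) := by exact_mod_cast hB2
    rw [card_univ] at h3
    have hpos : 0 < Fintype.card (Fin d → Fin d → Fin d → Bool) := Fintype.card_pos
    omega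
  refine ⟨fun m => mat (u m), fun m i j => mat_sq _ i j, fun x y z => hu x y z, fun X Y => ?_⟩
  set S := ∑ m, W (u m)
  set xv : Fin d × Fin d → ℝ := fun p => X p.1 p.2
  set yv : Fin d × Fin d → ℝ := fun p => Y p.1 p.2
  have e : ∑ m, ∑ i, ∑ a, ∑ j, ∑ b, mat (u m) i a * mat (u m) b j * X i j * Y a b =
      (∑ p, xv p * (S *ᵥ yv) p) + ∑ i, ∑ j, X i j * Y j i := by
    have e1 : (∑ p, xv p * (S *ᵥ yv) p) = ∑ m, ∑ p, ∑ q, W (u m) p q * xv p * yv q := by
      simp only [S, Matrix.mulVec, dotProduct, Matrix.sum_apply, sum_mul, mul_sum]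
      rw [sum_comm (γ := Fin d)]
      refine sum_congr rfl fun p _ => ?_
      rw [sum_comm]
      exact sum_congr rfl fun m _ => sum_congr rfl fun q _ => by ring
    have e2 : ∀ m, ∑ p, ∑ q, (Pm d p q + W (u m) p q) * xv p * yv q =
        ∑ i, ∑ a, ∑ j, ∑ b, mat (u m) i a * mat (u m) b j * X i j * Y a b := fun m => by
      simp only [W, Fintype.sum_prod_type, xv, yv, add_sub_cancel]
      exact sum_congr rfl fun i _ => sum_comm
    have e3 : ∑ p, ∑ q, Pm d p q * xv p * yv q = (∑ i, ∑ j, X i j * Y j i) / d := by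
      rw [Fintype.sum_prod_type, sum_div]
      refine sum_congr rfl fun i _ => ?_
      rw [sum_div]
      refine sum_congr rfl fun j _ => ?_
      rw [sum_eq_single (j, i)]
      · simp [Pm, xv, yv]; ring
      · intro q _ hq
        have : ¬(i = q.2 ∧ q.1 = j) := fun h => hq (Prod.ext h.2 h.1.symm)
        simp [Pm, this]
      · simp
    simp only [← e2, add_mul, sum_add_distrib, e3, sum_const, card_univ, Fintype.card_fin, nsmul_eq_mul]
    rw [e1, mul_div_cancel₀ _ (by positivity : (d:ℝ) ≠ 0)]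
    ring
  rw [e]
  set a := √(∑ i, ∑ j, X i j ^ 2)
  set b := √(∑ i, ∑ j, Y i j ^ 2)
  have ha : √(∑ p, xv p ^ 2) = a := by simp [a, xv, Fintype.sum_prod_type]
  have hb : √(∑ p, yv p ^ 2) = b := by simp [b, yv, Fintype.sum_prod_type]
  have c1 : |∑ p, xv p * (S *ᵥ yv) p| ≤ a * (L * b) := by
    refine (abs_le_abs (Real.sum_mul_le_sqrt_mul_sqrt univ xv _) ?_).trans ?_
    · have := Real.sum_mul_le_sqrt_mul_sqrt univ (fun p => -xv p) (S *ᵥ yv)
      simpa using this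
    rw [abs_of_nonneg (by positivity), ha]
    refine mul_le_mul_of_nonneg_left ?_ (Real.sqrt_nonneg _)
    rw [← hb, Real.sqrt_le_iff]
    refine ⟨by positivity, (sum_sq_mulVec_le S yv).trans ?_⟩
    rw [mul_pow, Real.sq_sqrt (sum_nonneg fun p _ => sq_nonneg _)]
    exact mul_le_mul_of_nonneg_right (pow_le_pow_left₀ (norm_nonneg _) hS 2) (sum_nonneg fun p _ => sq_nonneg _)
  have c2 : |∑ i, ∑ j, X i j * Y j i| ≤ a * b := by
    rw [← ha, ← hb]
    have e4 : ∀ p : Fin d × Fin d → ℝ, ∑ q, p q * yv q.swap = ∑ i, ∑ j, p (i, j) * Y j i := fun p => by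
      simp [yv, Fintype.sum_prod_type]
    have e5 : ∑ q : Fin d × Fin d, yv q.swap ^ 2 = ∑ q, yv q ^ 2 :=
      (Equiv.prodComm (Fin d) (Fin d)).sum_comp fun q => yv q ^ 2
    have h1 := Real.sum_mul_le_sqrt_mul_sqrt univ xv fun q => yv q.swap
    have h2 := Real.sum_mul_le_sqrt_mul_sqrt univ (fun q => -xv q) fun q => yv q.swap
    rw [e4, e5] at h1
    simp only [e4, e5, neg_sq] at h2
    simp only [neg_mul, sum_neg_distrib] at h2
    exact abs_le.2 ⟨by linarith, by simpa [xv] using h1⟩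
  refine (abs_add_le _ _).trans ((add_le_add c1 c2).trans ?_)
  have h2 : 1 ≤ ε / 2 * d := by
    rw [div_le_iff₀ hε] at hεd; linarith
  have hab : 0 ≤ a * b := by positivity
  calc a * (L * b) + a * b ≤ a * (L * b) + (ε / 2 * d) * (a * b) := by linarith [le_mul_of_one_le_left hab h2]
    _ = _ := by rw [hL]; ring

end Vale.Agent.P372.Random
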